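import Vale.Agent.P022.H783.QE

/-!
# P022 [TWIST]: translates `f(τ + a/m)` and the operators `U_p` on `M_k(Γ₁(N))`
-/

open scoped ModularForm MatrixGroups Manifold
open UpperHalfPlane Matrix CongruenceSubgroup
open Vale.Agent.P004H.H181 (Reps key1 no_unit fin_eq sl sl_coe hs_congr isCusp_smul_rat)

noncomputable section

namespace Vale.Agent.P022.H707

open H783

/-- cusps do not depend on the level -/
theorem isCusp_change {N N' : ℕ} [NeZero N] [NeZero N'] {c : OnePoint ℝ}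
    (hc : IsCusp c (Gam N')) : IsCusp c (Gam N) := by
  rw [Subgroup.IsArithmetic.isCusp_iff_isCusp_SL2Z] at hc ⊢
  exact hc

/-- slash by a rational matrix, from level `N` to level `N'` -/
def mv {N N' : ℕ} [NeZero N] [NeZero N'] (β : GL (Fin 2) ℚ)
    (hβ : 0 < (β.map (algebraMap ℚ ℝ)).det.val)
    (H : ∀ γ ∈ Gam N', ∃ γ' ∈ Gam N,
      β.map (algebraMap ℚ ℝ) * γ = γ' * β.map (algebraMap ℚ ℝ)) (k : ℕ) :
    MF N k →ₗ[ℂ] MF N' k where
  toFun f :=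
    { toFun := (f : ℍ → ℂ) ∣[(k : ℤ)] (β.map (algebraMap ℚ ℝ))
      slash_action_eq' := fun γ hγ => by
        obtain ⟨γ', h1, h2⟩ := H γ hγ
        have e : (f : ℍ → ℂ) ∣[(k : ℤ)] γ' = f := f.slash_action_eq' γ' h1
        rw [← SlashAction.slash_mul, h2, SlashAction.slash_mul, e]
      holo' := f.holo'.slash k _
      bdd_at_cusps' := fun {c} hc => by
        intro γ hγ
        have h1 := f.bdd_at_cusps' (isCusp_change (N := N) (isCusp_smul_rat hc β))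
        exact OnePoint.IsBoundedAt.smul_iff.1 h1 γ hγ }
  map_add' f g := by
    ext τ
    change (((f + g : MF N k) : ℍ → ℂ) ∣[(k : ℤ)] (β.map (algebraMap ℚ ℝ))) τ =
      ((f : ℍ → ℂ) ∣[(k : ℤ)] (β.map (algebraMap ℚ ℝ))) τ +
        ((g : ℍ → ℂ) ∣[(k : ℤ)] (β.map (algebraMap ℚ ℝ))) τ
    rw [FunLike.coe_add, SlashAction.add_slash, Pi.add_apply]
  map_smul' c f := by
    ext τ
    change (((c • f : MF N k) : ℍ → ℂ) ∣[(k : ℤ)] (β.map (algebraMap ℚ ℝ))) τ =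
      c • ((f : ℍ → ℂ) ∣[(k : ℤ)] (β.map (algebraMap ℚ ℝ))) τ
    rw [FunLike.coe_smul, ModularForm.smul_slash, σ, if_pos hβ]
    rfl

theorem mv_coe {N N' : ℕ} [NeZero N] [NeZero N'] (β : GL (Fin 2) ℚ)
    (hβ : 0 < (β.map (algebraMap ℚ ℝ)).det.val)
    (H : ∀ γ ∈ Gam N', ∃ γ' ∈ Gam N,
      β.map (algebraMap ℚ ℝ) * γ = γ' * β.map (algebraMap ℚ ℝ)) (k : ℕ) (f : MF N k) :
    (mv β hβ H k f : ℍ → ℂ) = (f : ℍ → ℂ) ∣[(k : ℤ)] (β.map (algebraMap ℚ ℝ)) := rfl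

/-! ### coefficients -/

/-- the `n`-th coefficient of the `q`-expansion -/
def co {N k : ℕ} (f : MF N k) (n : ℕ) : ℂ := (qExpansion 1 f).coeff n

theorem hs_co {N : ℕ} [NeZero N] {k : ℕ} (f : MF N k) (τ : ℍ) :
    HasSum (fun m => co f m * qq τ ^ m) (f τ) := hasSum_form f τ

theorem co_eq {N : ℕ} [NeZero N] {k : ℕ} {f : MF N k} {c : ℕ → ℂ}
    (h : ∀ τ : ℍ, HasSum (fun m => c m * qq τ ^ m) (f τ)) (n : ℕ) : co f n = c n := by
  have h1 : ∀ τ : ℍ, HasSum (fun m => c m • Function.Periodic.qParam 1 τ ^ m) (f τ) := h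
  exact (ModularFormClass.qExpansion_coeff_unique one_pos one_mem_periods h1 n).symm

theorem ext_co {N : ℕ} [NeZero N] {k : ℕ} {f g : MF N k} (h : ∀ n, co f n = co g n) : f = g := by
  ext τ
  have h1 := hs_co f τ
  have h2 := hs_co g τ
  simp only [h] at h1
  exact h1.unique h2

/-- the coefficient as a linear map -/
def coL {N : ℕ} [NeZero N] (k n : ℕ) : MF N k →ₗ[ℂ] ℂ where
  toFun f := co f n
  map_add' f g := co_eq (f := f + g) (c := fun m => co f m + co g m) (fun τ => by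
    have h := (hs_co f τ).add (hs_co g τ)
    rw [show (f + g) τ = f τ + g τ from rfl]
    refine hs_congr h fun m => ?_
    ring) n
  map_smul' c f := co_eq (f := c • f) (c := fun m => c * co f m) (fun τ => by
    have h := (hs_co f τ).mul_left c
    rw [show (c • f) τ = c * f τ from rfl]
    refine hs_congr h fun m => ?_
    ring) n

theorem coL_apply {N : ℕ} [NeZero N] {k : ℕ} (n : ℕ) (f : MF N k) : coL k n f = co f n := rfl

/-- a form of positive weight whose coefficients of positive index vanish is zero -/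
theorem eq_zero_of_co {N : ℕ} [NeZero N] {k : ℕ} (hk : 0 < k) {f : MF N k}
    (h : ∀ n, 0 < n → co f n = 0) : f = 0 := by
  have hc : ∀ τ : ℍ, f τ = co f 0 := by
    intro τ
    have h1 := hs_co f τ
    have h2 : HasSum (fun m => co f m * qq τ ^ m) (co f 0 * qq τ ^ 0) := by
      apply hasSum_single
      intro m hm
      rw [h m (Nat.pos_of_ne_zero hm), zero_mul]
    rw [pow_zero, mul_one] at h2
    exact h1.unique h2
  obtain ⟨γ, hγ, e⟩ := mem_G1 N (a := 1) (b := 0) (c := N) (d := 1) (by norm_num)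
    (dvd_refl _) (by simp)
  have h1 := congrFun (f.slash_action_eq' γ hγ) UpperHalfPlane.I
  have hdet : γ.det.val = 1 := by
    rw [GeneralLinearGroup.val_det_apply, e, Matrix.det_fin_two_of]
    push_cast
    ring
  have hN : (0 : ℝ) < N := by exact_mod_cast Nat.pos_of_ne_zero (NeZero.ne N)
  change ((f : ℍ → ℂ) ∣[(k : ℤ)] γ) UpperHalfPlane.I = f UpperHalfPlane.I at h1
  rw [ModularForm.slash_apply, hc, hc, hdet, σ, if_pos (by rw [hdet]; exact one_pos)] at h1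
  have hde : UpperHalfPlane.denom γ UpperHalfPlane.I = N * Complex.I + 1 := by
    simp [UpperHalfPlane.denom, e]
  rw [hde] at h1
  have hn : 1 < ‖((N : ℂ) * Complex.I + 1)‖ := by
    have h2 : Complex.normSq ((N : ℂ) * Complex.I + 1) = (N : ℝ) ^ 2 + 1 := by
      rw [Complex.normSq_apply]
      simp
      ring
    have h3 : ‖((N : ℂ) * Complex.I + 1)‖ ^ 2 = (N : ℝ) ^ 2 + 1 := by
      rw [← Complex.normSq_eq_norm_sq, h2]
    nlinarith [norm_nonneg ((N : ℂ) * Complex.I + 1)]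
  have h0 : co f 0 = 0 := by
    by_contra h0
    have h4 : ((N : ℂ) * Complex.I + 1) ^ (-(k : ℤ)) = 1 := by
      apply mul_left_cancel₀ h0
      simpa using h1
    have h5 : ‖((N : ℂ) * Complex.I + 1)‖ ^ k = 1 := by
      rw [_root_.zpow_neg, inv_eq_one, zpow_natCast] at h4
      rw [← norm_pow, h4, norm_one]
    have h6 := one_lt_pow₀ hn hk.ne'
    exact absurd h5 h6.ne'
  ext τ
  rw [hc, h0]
  rfl

/-! ### translates -/

/-- the matrix `[1, a/m; 0, 1]` -/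
def bt (m : ℕ) (a : ℤ) : GL (Fin 2) ℚ := tri 1 (a / m) 1 (by norm_num)

theorem bt_coe (m : ℕ) (a : ℤ) :
    (((bt m a).map (algebraMap ℚ ℝ) : GL (Fin 2) ℝ) : Matrix (Fin 2) (Fin 2) ℝ) =
      !![1, (a : ℝ) / m; 0, 1] := by
  rw [bt, tri_coe]
  push_cast
  rfl

theorem bt_det (m : ℕ) (a : ℤ) : 0 < ((bt m a).map (algebraMap ℚ ℝ)).det.val := by
  rw [bt, tri_det]
  norm_num

theorem bt_conj {N m : ℕ} (hm : m ≠ 0) (a : ℤ) (γ : GL (Fin 2) ℝ) (hγ : γ ∈ Gam (N * m ^ 2)) :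
    ∃ γ' ∈ Gam N, (bt m a).map (algebraMap ℚ ℝ) * γ = γ' * (bt m a).map (algebraMap ℚ ℝ) := by
  obtain ⟨A, B, C, D, h1, ⟨C', hC⟩, ⟨A', hA⟩, ⟨D', hD⟩, e⟩ := of_mem_G1 hγ
  have hm' : (m : ℝ) ≠ 0 := by exact_mod_cast hm
  push_cast at hC hA hD
  have hA' : A = 1 + N * m ^ 2 * A' := by linear_combination hA
  have hD' : D = 1 + N * m ^ 2 * D' := by linear_combination hD
  obtain ⟨γ', hγ', e'⟩ := mem_G1 N (a := A + a * N * m * C')
    (b := B + a * N * m * (D' - A') - a ^ 2 * N * C') (c := C) (d := D - a * N * m * C')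
    (by
      rw [hA', hD', hC] at h1 ⊢
      linear_combination h1)
    ⟨m ^ 2 * C', by rw [hC]; ring⟩
    ⟨m ^ 2 * D' - a * m * C', by rw [hD']; ring⟩
  refine ⟨γ', hγ', ?_⟩
  apply Units.ext
  rw [Units.val_mul, Units.val_mul, e, e', bt_coe]
  have hA2 : (A : ℝ) = 1 + N * m ^ 2 * A' := by exact_mod_cast hA'
  have hD2 : (D : ℝ) = 1 + N * m ^ 2 * D' := by exact_mod_cast hD'
  have hC2 : (C : ℝ) = N * m ^ 2 * C' := by exact_mod_cast hC
  ext i j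
  fin_cases i <;> fin_cases j <;>
    simp [Matrix.mul_apply, Fin.sum_univ_two, hA2, hD2, hC2] <;> field_simp <;> ring

/-- `f(τ + a/m)` -/
def tr {N m : ℕ} [NeZero N] [NeZero m] [NeZero (N * m ^ 2)] (k : ℕ) (a : ℤ) :
    MF N k →ₗ[ℂ] MF (N * m ^ 2) k :=
  mv (bt m a) (bt_det m a) (bt_conj (NeZero.ne m) a) k

theorem tr_coe {N m : ℕ} [NeZero N] [NeZero m] [NeZero (N * m ^ 2)] (k : ℕ) (a : ℤ) (f : MF N k) :
    (tr (m := m) k a f : ℍ → ℂ) = (f : ℍ → ℂ) ∣[(k : ℤ)] ((bt m a).map (algebraMap ℚ ℝ)) := rfl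

/-- the coefficients of `f(τ + a/m)` -/
theorem co_tr {N m : ℕ} [NeZero N] [NeZero m] [NeZero (N * m ^ 2)] (k : ℕ) (a : ℤ) (f : MF N k)
    (n : ℕ) : co (tr (m := m) k a f) n =
      Complex.exp (2 * Real.pi * Complex.I * (n * a / m)) * co f n := by
  refine co_eq (c := fun n => Complex.exp (2 * Real.pi * Complex.I * (n * a / m)) * co f n)
    (fun τ => ?_) n
  obtain ⟨τ', e1, e2⟩ := slash_tri (f := (f : ℍ → ℂ)) (a := 1) (b := (a : ℚ) / m) (d := 1)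
    (by norm_num) one_pos one_pos (k : ℤ) τ
  have e3 : tr (m := m) k a f τ = f τ' := by
    change ((f : ℍ → ℂ) ∣[(k : ℤ)] ((tri 1 ((a : ℚ) / m) 1 (by norm_num)).map
      (algebraMap ℚ ℝ))) τ = f τ'
    rw [e2]
    push_cast
    rw [mul_one, _root_.one_zpow, _root_.one_zpow, one_mul, one_mul]
  rw [e3]
  refine hs_congr (hs_co f τ') fun n => ?_
  rw [qq, qq, Function.Periodic.qParam, Function.Periodic.qParam, ← Complex.exp_nat_mul,
    ← Complex.exp_nat_mul, e1]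
  have e4 : (n : ℂ) * (2 * Real.pi * Complex.I * ((((1 : ℚ) : ℂ) * τ + (((a : ℚ) / m : ℚ) : ℂ)) /
      ((1 : ℚ) : ℂ)) / ((1 : ℝ) : ℂ)) = 2 * Real.pi * Complex.I * (n * a / m) +
        (n : ℂ) * (2 * Real.pi * Complex.I * τ / ((1 : ℝ) : ℂ)) := by
    push_cast
    ring
  rw [e4, Complex.exp_add]
  ring

/-- a prime prime to `2 N'` is prime to `2 N` -/
def dp {N N' : ℕ} (h : N ∣ N') (ℓ : PA N') : PA N :=
  ⟨ℓ.1, ℓ.2.1, fun h1 => ℓ.2.2 (h1.trans (mul_dvd_mul_left 2 h))⟩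

/-- `⟨ℓ⟩ (f(τ + a/m)) = (⟨ℓ⟩ f)(τ + ℓ² a/m)` -/
theorem dia_tr {N m : ℕ} [NeZero N] [NeZero m] [NeZero (N * m ^ 2)] (k : ℕ) (ℓ : PA (N * m ^ 2))
    (a : ℤ) (f : MF N k) :
    dia k ℓ (tr (m := m) k a f) =
      tr (m := m) k ((ℓ.1 : ℤ) ^ 2 * a) (dia k (dp (dvd_mul_right N (m ^ 2)) ℓ) f) := by
  have hm' : (m : ℝ) ≠ 0 := by exact_mod_cast NeZero.ne m
  obtain ⟨A, B, h1, e⟩ := gd_coe ℓ.coprime
  push_cast at h1
  have hdet : (A + a * N * m) * ((ℓ.1 : ℤ) - (ℓ.1 : ℤ) ^ 2 * a * N * m) -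
      (B - a * ℓ.1 * B * N * m - (ℓ.1 : ℤ) ^ 2 * a ^ 2 * N) * ((N * m ^ 2 : ℕ) : ℤ) = 1 := by
    push_cast
    linear_combination (1 - (ℓ.1 : ℤ) * a * N * m) * h1
  have hs : sl (A + a * N * m) (B - a * ℓ.1 * B * N * m - (ℓ.1 : ℤ) ^ 2 * a ^ 2 * N)
      ((N * m ^ 2 : ℕ) : ℤ) ((ℓ.1 : ℤ) - (ℓ.1 : ℤ) ^ 2 * a * N * m) hdet ∈ Gamma0 N := by
    rw [Gamma0_mem]
    change (((N * m ^ 2 : ℕ) : ℤ) : ZMod N) = 0
    push_cast
    simp
  have hd : ((sl (A + a * N * m) (B - a * ℓ.1 * B * N * m - (ℓ.1 : ℤ) ^ 2 * a ^ 2 * N)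
      ((N * m ^ 2 : ℕ) : ℤ) ((ℓ.1 : ℤ) - (ℓ.1 : ℤ) ^ 2 * a * N * m) hdet 1 1 : ℤ) : ZMod N) =
        (dp (dvd_mul_right N (m ^ 2)) ℓ).1 := by
    change (((ℓ.1 : ℤ) - (ℓ.1 : ℤ) ^ 2 * a * N * m : ℤ) : ZMod N) = (ℓ.1 : ZMod N)
    push_cast
    simp
  have key := dFun_eq (k := k) (dp (dvd_mul_right N (m ^ 2)) ℓ) hs hd f
  apply DFunLike.coe_injective
  rw [dia_coe, tr_coe, tr_coe, dia_coe, key, dFun]
  change ((f : ℍ → ℂ) ∣[(k : ℤ)] ((bt m a).map (algebraMap ℚ ℝ))) ∣[(k : ℤ)]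
      (SpecialLinearGroup.mapGL ℝ (gd (N * m ^ 2) ℓ.1 ℓ.coprime)) =
    ((f : ℍ → ℂ) ∣[(k : ℤ)] (SpecialLinearGroup.mapGL ℝ (sl (A + a * N * m)
      (B - a * ℓ.1 * B * N * m - (ℓ.1 : ℤ) ^ 2 * a ^ 2 * N)
      ((N * m ^ 2 : ℕ) : ℤ) ((ℓ.1 : ℤ) - (ℓ.1 : ℤ) ^ 2 * a * N * m) hdet))) ∣[(k : ℤ)]
        ((bt m ((ℓ.1 : ℤ) ^ 2 * a)).map (algebraMap ℚ ℝ))
  rw [← SlashAction.slash_mul, ← SlashAction.slash_mul]
  congr 1
  apply Units.ext
  rw [Units.val_mul, Units.val_mul, bt_coe, bt_coe, SpecialLinearGroup.mapGL_coe_matrix,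
    SpecialLinearGroup.mapGL_coe_matrix, SpecialLinearGroup.map_apply_coe,
    SpecialLinearGroup.map_apply_coe, sl_coe, e]
  have h1' : (A : ℝ) * ℓ.1 - B * (N * m ^ 2) = 1 := by exact_mod_cast h1
  ext i j
  fin_cases i <;> fin_cases j
  · simp [Matrix.mul_apply, Fin.sum_univ_two]
    field_simp
  · simp [Matrix.mul_apply, Fin.sum_univ_two]
    field_simp
    linear_combination (-(a : ℝ) * ℓ.1) * h1'
  · simp [Matrix.mul_apply, Fin.sum_univ_two]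
  · simp [Matrix.mul_apply, Fin.sum_univ_two]
    field_simp
    ring

end Vale.Agent.P022.H707
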