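import Vale.Agent.P022.H707.Tw1

/-!
# P022 [TWIST]: `T_ℓ` and translates, the operators `U_p`, the inclusion of levels
-/

open scoped ModularForm MatrixGroups Manifold
open UpperHalfPlane Matrix CongruenceSubgroup
open Vale.Agent.P004H.H181 (Reps key1 no_unit fin_eq sl sl_coe hs_congr isCusp_smul_rat)

noncomputable section

namespace Vale.Agent.P022.H707

open H783

/-- the coefficients of `T_ℓ f` -/
theorem co_Tl {N : ℕ} [NeZero N] (k : ℕ) (ℓ : PA N) (f : MF N k) (n : ℕ) :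
    co (Tl k ℓ f) n = co f (ℓ.1 * n) +
      if ℓ.1 ∣ n then (ℓ.1 : ℂ) ^ ((k : ℤ) - 1) * co (dia k ℓ f) (n / ℓ.1) else 0 :=
  co_eq (c := fun n => co f (ℓ.1 * n) +
      if ℓ.1 ∣ n then (ℓ.1 : ℂ) ^ ((k : ℤ) - 1) * co (dia k ℓ f) (n / ℓ.1) else 0)
    (fun τ => hasSum_Tl k ℓ (hs_co f) (hs_co (dia k ℓ f)) τ) n

/-- `T_ℓ (f(τ + a/m)) = (T_ℓ f)(τ + ℓ a/m)` -/
theorem Tl_tr {N m : ℕ} [NeZero N] [NeZero m] [NeZero (N * m ^ 2)] (k : ℕ) (ℓ : PA (N * m ^ 2))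
    (a : ℤ) (f : MF N k) :
    Tl k ℓ (tr (m := m) k a f) =
      tr (m := m) k ((ℓ.1 : ℤ) * a) (Tl k (dp (dvd_mul_right N (m ^ 2)) ℓ) f) := by
  apply ext_co
  intro n
  rw [co_Tl, dia_tr, co_tr, co_tr, co_tr, co_Tl, mul_add]
  have e0 : (dp (dvd_mul_right N (m ^ 2)) ℓ).1 = ℓ.1 := rfl
  rw [e0]
  congr 1
  · congr 2
    push_cast
    ring
  · by_cases h : ℓ.1 ∣ n
    · rw [if_pos h, if_pos h]
      obtain ⟨n', rfl⟩ := h
      rw [Nat.mul_div_cancel_left _ ℓ.2.1.pos]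
      have e1 : 2 * Real.pi * Complex.I * ((n' : ℂ) * (((ℓ.1 : ℤ) ^ 2 * a : ℤ) : ℂ) / m) =
          2 * Real.pi * Complex.I * (((ℓ.1 * n' : ℕ) : ℂ) * (((ℓ.1 : ℤ) * a : ℤ) : ℂ) / m) := by
        push_cast
        ring
      rw [e1]
      ring
    · rw [if_neg h, if_neg h, mul_zero]

/-! ### `U_p` -/

/-- the representatives of `U_p` -/
def bu {p : ℕ} (hp : p.Prime) (j : Fin p) : GL (Fin 2) ℚ :=
  tri 1 (j : ℕ) p (by simpa using hp.ne_zero)

theorem bu_det {p : ℕ} (hp : p.Prime) (j : Fin p) :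
    0 < ((bu hp j).map (algebraMap ℚ ℝ)).det.val := by
  have hl0 : (0 : ℝ) < p := by exact_mod_cast hp.pos
  rw [bu, tri_det]
  push_cast
  linarith

/-- an integral matrix of determinant `p`, `≡ [1, *; 0, *]` modulo `N`, `p ∣ N`, lies in
`Γ₁(N) β_j` -/
theorem cosetsU {N p : ℕ} (hp : p.Prime) (hpN : p ∣ N) {a' b' c' d' : ℤ}
    (hdet : a' * d' - b' * c' = p) (hc : (N : ℤ) ∣ c') (ha' : (N : ℤ) ∣ a' - 1)
    (M : GL (Fin 2) ℝ) (hM : (M : Matrix (Fin 2) (Fin 2) ℝ) = !![(a' : ℝ), b'; c', d']) :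
    ∃ j, ∃ γ' ∈ Gam N, M = γ' * (bu hp j).map (algebraMap ℚ ℝ) := by
  have hl0 : (p : ℤ) ≠ 0 := by exact_mod_cast hp.ne_zero
  have hpN' : (p : ℤ) ∣ N := by exact_mod_cast hpN
  have hh : ¬ ((p : ℤ) ∣ a' ∧ (p : ℤ) ∣ c') := by
    rintro ⟨h1, -⟩
    have h2 : (p : ℤ) ∣ a' - 1 := hpN'.trans ha'
    have h3 : (p : ℤ) ∣ 1 := by
      have := dvd_sub h1 h2
      simpa using this
    have h4 : p ∣ 1 := by exact_mod_cast h3
    exact hp.one_lt.ne' (Nat.dvd_one.1 h4)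
  obtain ⟨j, u, v, hu, hv⟩ := key1 p hp hdet hh
  have e1 : a' * v - u * c' = 1 := by
    apply mul_left_cancel₀ hl0
    rw [hu, hv] at hdet
    linear_combination hdet
  have e2 : (N : ℤ) ∣ v - 1 := by
    obtain ⟨w, hw⟩ := ha'
    obtain ⟨t, ht⟩ := hc
    refine ⟨u * t - w * v, ?_⟩
    rw [ht] at e1
    linear_combination e1 - v * hw
  obtain ⟨γ', hγ', hγ2⟩ := mem_G1 N e1 hc e2
  refine ⟨j, γ', hγ', ?_⟩
  apply Units.ext
  rw [hM, Units.val_mul, hγ2, bu, tri_coe, hu, hv]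
  ext i j
  fin_cases i <;> fin_cases j <;> simp [Matrix.mul_apply, Fin.sum_univ_two]

theorem repsU {N p : ℕ} (hp : p.Prime) (hpN : p ∣ N) :
    Reps (Gam N) (fun j => (bu hp j).map (algebraMap ℚ ℝ)) where
  ex := by
    intro i γ hγ
    obtain ⟨a, b, c, d, h1, h2, h2a, h2d, h3⟩ := of_mem_G1 hγ
    refine cosetsU hp hpN (a' := a + (i : ℕ) * c) (b' := b + (i : ℕ) * d) (c' := p * c)
      (d' := p * d) (by linear_combination (p : ℤ) * h1) (h2.mul_left _) ?_ _ ?_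
    · have : a + (i : ℕ) * c - 1 = (a - 1) + (i : ℕ) * c := by ring
      rw [this]
      exact dvd_add h2a (h2.mul_left _)
    · rw [Units.val_mul, h3, bu, tri_coe]
      ext i j
      fin_cases i <;> fin_cases j <;> simp [Matrix.mul_apply, Fin.sum_univ_two]
  uniq := by
    intro i j γ hγ h
    have : Fact p.Prime := ⟨hp⟩
    obtain ⟨a, b, c, d, h1, h2, h2a, h2d, h3⟩ := of_mem_G1 hγ
    have h4 := congrArg (fun x : GL (Fin 2) ℝ => (x : Matrix (Fin 2) (Fin 2) ℝ)) h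
    simp only [Units.val_mul, h3] at h4
    simp only [bu, tri_coe] at h4
    have h00 := congrFun (congrFun h4 0) 0
    have h01 := congrFun (congrFun h4 0) 1
    simp [Matrix.mul_apply, Fin.sum_univ_two] at h00 h01
    rw [← h00, one_mul] at h01
    exact fin_eq p h01

/-- the operator `U_p` on `M_k(Γ₁(N))`, `p ∣ N` -/
def Up {N p : ℕ} [NeZero N] (hp : p.Prime) (hpN : p ∣ N) (k : ℕ) : Module.End ℂ (MF N k) :=
  hSum (Gam N) (bu hp) (bu_det hp) (repsU hp hpN) k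

theorem co_Up {N p : ℕ} [NeZero N] (hp : p.Prime) (hpN : p ∣ N) (k : ℕ) (f : MF N k) (n : ℕ) :
    co (Up hp hpN k f) n = co f (p * n) := by
  refine co_eq (c := fun n => co f (p * n)) (fun τ => ?_) n
  exact hasSum_U hp (k : ℤ) (hs_co f) τ

/-- conjugation by an element of `Γ₀(N)` permutes the cosets -/
theorem conj_cosetsU {N p : ℕ} (hp : p.Prime) (hpN : p ∣ N) {s : SL(2, ℤ)} (hs : s ∈ Gamma0 N)
    (i : Fin p) : ∃ j, ∃ γ ∈ Gam N,
      (bu hp i).map (algebraMap ℚ ℝ) * SpecialLinearGroup.mapGL ℝ s =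
        γ * SpecialLinearGroup.mapGL ℝ s * (bu hp j).map (algebraMap ℚ ℝ) := by
  obtain ⟨c', hc'⟩ : (N : ℤ) ∣ s 1 0 := (ZMod.intCast_zmod_eq_zero_iff_dvd _ N).1 (Gamma0_mem.1 hs)
  have hsd : (s 0 0 : ℤ) * s 1 1 - s 0 1 * s 1 0 = 1 := by
    have := s.det_coe
    rwa [Matrix.det_fin_two] at this
  set A := s 0 0
  set B := s 0 1
  set C := s 1 0
  set D := s 1 1
  set q : ℤ := ((i : ℕ) : ℤ) with hq
  obtain ⟨j, γ, hγ, h⟩ := cosetsU hp hpN
    (a' := D * (A + q * C) - B * (p * C))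
    (b' := D * (B + q * D) - B * (p * D))
    (c' := -C * (A + q * C) + A * (p * C))
    (d' := -C * (B + q * D) + A * (p * D))
    (by linear_combination (A * D - B * C + 1) * (p : ℤ) * hsd)
    (by
      refine ⟨-c' * (A + q * C) + A * (p * c'), ?_⟩
      rw [hc']
      ring)
    (by
      refine ⟨D * q * c' - B * (p * c') + B * c', ?_⟩
      rw [hc'] at hsd ⊢
      linear_combination hsd)
    ((SpecialLinearGroup.mapGL ℝ s)⁻¹ * (bu hp i).map (algebraMap ℚ ℝ) *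
      SpecialLinearGroup.mapGL ℝ s)
    (by
      rw [Units.val_mul, Units.val_mul, bu, tri_coe, mapGL_inv_coe, mapGL_coe']
      ext i j
      fin_cases i <;> fin_cases j <;>
        simp [Matrix.mul_apply, Fin.sum_univ_two, hq] <;> ring)
  obtain ⟨g, hg, rfl⟩ := hγ
  refine ⟨j, SpecialLinearGroup.mapGL ℝ (s * g * s⁻¹),
    Subgroup.mem_map_of_mem _ (conj_mem hs hg), ?_⟩
  calc (bu hp i).map (algebraMap ℚ ℝ) * SpecialLinearGroup.mapGL ℝ s
      = SpecialLinearGroup.mapGL ℝ s * ((SpecialLinearGroup.mapGL ℝ s)⁻¹ *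
        (bu hp i).map (algebraMap ℚ ℝ) * SpecialLinearGroup.mapGL ℝ s) := by group
    _ = _ := by
      rw [h, map_mul, map_mul, map_inv]
      group

/-- `U_p` commutes with every `f ↦ f | s`, `s ∈ Γ₀(N)` -/
theorem Up_slG0 {N p : ℕ} [NeZero N] (hp : p.Prime) (hpN : p ∣ N) (k : ℕ) {s : SL(2, ℤ)}
    (hs : s ∈ Gamma0 N) (f : MF N k) :
    Up hp hpN k (slG0 hs k f) = slG0 hs k (Up hp hpN k f) := by
  choose σ γ hγ hσ using fun i => conj_cosetsU hp hpN hs i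
  have inj : Function.Injective σ := by
    intro i j h
    have h1 := hσ i
    have h2 := hσ j
    rw [h] at h1
    refine (repsU hp hpN).uniq i j (γ i * (γ j)⁻¹)
      ((Gam N).mul_mem (hγ i) ((Gam N).inv_mem (hγ j))) ?_
    calc (bu hp i).map (algebraMap ℚ ℝ)
        = ((bu hp i).map (algebraMap ℚ ℝ) * SpecialLinearGroup.mapGL ℝ s) *
          (SpecialLinearGroup.mapGL ℝ s)⁻¹ := by group
      _ = γ i * (γ j)⁻¹ * ((γ j) * SpecialLinearGroup.mapGL ℝ s *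
          (bu hp (σ j)).map (algebraMap ℚ ℝ)) * (SpecialLinearGroup.mapGL ℝ s)⁻¹ := by
        rw [h1]
        group
      _ = _ := by
        rw [← h2]
        group
  have bij : Function.Bijective σ := Finite.injective_iff_bijective.1 inj
  have key : (((Up hp hpN k f : MF N k) : ℍ → ℂ) ∣[(k : ℤ)] (SpecialLinearGroup.mapGL ℝ s)) =
      ((Up hp hpN k (slG0 hs k f) : MF N k) : ℍ → ℂ) := by
    rw [Up, hSum_coe, hSum_coe, slG0_coe, SlashAction.sum_slash]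
    have e1 : ∀ i, ((f : ℍ → ℂ) ∣[(k : ℤ)] ((bu hp i).map (algebraMap ℚ ℝ))) ∣[(k : ℤ)]
        (SpecialLinearGroup.mapGL ℝ s) =
        ((f : ℍ → ℂ) ∣[(k : ℤ)] (SpecialLinearGroup.mapGL ℝ s)) ∣[(k : ℤ)]
          ((bu hp (σ i)).map (algebraMap ℚ ℝ)) := by
      intro i
      rw [← SlashAction.slash_mul, hσ, SlashAction.slash_mul, SlashAction.slash_mul]
      congr 2
      exact f.slash_action_eq' _ (hγ i)
    simp_rw [e1]
    exact (Equiv.ofBijective σ bij).sum_comp (fun i => ((f : ℍ → ℂ) ∣[(k : ℤ)]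
      (SpecialLinearGroup.mapGL ℝ s)) ∣[(k : ℤ)] ((bu hp i).map (algebraMap ℚ ℝ)))
  apply DFunLike.coe_injective
  rw [← key, slG0_coe]
  rfl

theorem Up_dia {N p : ℕ} [NeZero N] (hp : p.Prime) (hpN : p ∣ N) (k : ℕ) (ℓ : PA N) (f : MF N k) :
    Up hp hpN k (dia k ℓ f) = dia k ℓ (Up hp hpN k f) := Up_slG0 hp hpN k (gd_mem ℓ.coprime) f

theorem Up_Tl {N p : ℕ} [NeZero N] (hp : p.Prime) (hpN : p ∣ N) (k : ℕ) (ℓ : PA N) (f : MF N k) :
    Up hp hpN k (Tl k ℓ f) = Tl k ℓ (Up hp hpN k f) := by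
  have hcop : Nat.Coprime ℓ.1 p := by
    rw [Nat.coprime_primes ℓ.2.1 hp]
    intro h
    exact ℓ.2.2 (h ▸ hpN.mul_left 2)
  apply ext_co
  intro n
  rw [co_Up, co_Tl, co_Tl, co_Up, ← Up_dia, co_Up]
  have h1 : ℓ.1 ∣ p * n ↔ ℓ.1 ∣ n := hcop.dvd_mul_left
  have h0 : ℓ.1 * (p * n) = p * (ℓ.1 * n) := by ring
  rw [h0]
  congr 1
  by_cases h : ℓ.1 ∣ n
  · rw [if_pos h, if_pos (h1.2 h), Nat.mul_div_assoc _ h]
  · rw [if_neg h, if_neg (fun h2 => h (h1.1 h2))]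

/-! ### the inclusion of levels -/

theorem Gam_le {N N' : ℕ} (h : N ∣ N') (γ : GL (Fin 2) ℝ) (hγ : γ ∈ Gam N') : γ ∈ Gam N := by
  obtain ⟨a, b, c, d, h1, h2, -, h3, e⟩ := of_mem_G1 hγ
  have h' : (N : ℤ) ∣ N' := by exact_mod_cast h
  obtain ⟨γ', hγ', e'⟩ := mem_G1 N h1 (h'.trans h2) (h'.trans h3)
  have : γ = γ' := Units.ext (e.trans e'.symm)
  rwa [this]

/-- `M_k(Γ₁(N)) → M_k(Γ₁(N'))` -/
def inc {N N' : ℕ} [NeZero N] [NeZero N'] (h : N ∣ N') (k : ℕ) : MF N k →ₗ[ℂ] MF N' k :=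
  mv 1 (by simp) (fun γ hγ => ⟨γ, Gam_le h γ hγ, by simp⟩) k

theorem inc_coe {N N' : ℕ} [NeZero N] [NeZero N'] (h : N ∣ N') (k : ℕ) (f : MF N k) :
    (inc h k f : ℍ → ℂ) = f := by
  rw [inc, mv_coe, map_one, SlashAction.slash_one]

theorem inc_injective {N N' : ℕ} [NeZero N] [NeZero N'] (h : N ∣ N') (k : ℕ) :
    Function.Injective (inc (N := N) (N' := N') h k) := by
  intro f g hfg
  apply DFunLike.coe_injective
  rw [← inc_coe h k f, ← inc_coe h k g, hfg]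

theorem dia_inc {N N' : ℕ} [NeZero N] [NeZero N'] (h : N ∣ N') (k : ℕ) (ℓ : PA N') (f : MF N k) :
    dia k ℓ (inc h k f) = inc h k (dia k (dp h ℓ) f) := by
  apply DFunLike.coe_injective
  rw [dia_coe, inc_coe, inc_coe, dia_coe]
  have hs : gd N' ℓ.1 ℓ.coprime ∈ Gamma0 N := by
    have := gd_mem ℓ.coprime
    rw [Gamma0_mem] at this ⊢
    rw [ZMod.intCast_zmod_eq_zero_iff_dvd] at this ⊢
    exact (by exact_mod_cast h : (N : ℤ) ∣ N').trans this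
  have hd : ((gd N' ℓ.1 ℓ.coprime 1 1 : ℤ) : ZMod N) = (dp h ℓ).1 := by
    obtain ⟨a, b, -, e⟩ := gd_coe ℓ.coprime
    rw [e]
    simp [dp]
  rw [dFun_eq (dp h ℓ) hs hd f, dFun]

theorem Tl_inc {N N' : ℕ} [NeZero N] [NeZero N'] (h : N ∣ N') (k : ℕ) (ℓ : PA N') (f : MF N k) :
    Tl k ℓ (inc h k f) = inc h k (Tl k (dp h ℓ) f) := by
  apply DFunLike.coe_injective
  rw [Tl_coe, inc_coe, inc_coe, Tl_coe, tFun, tFun]
  have e : dFun N' k ℓ (f : ℍ → ℂ) = dFun N k (dp h ℓ) f := by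
    have h1 := congrArg (fun x : MF N' k => (x : ℍ → ℂ)) (dia_inc h k ℓ f)
    simp only [dia_coe, inc_coe] at h1
    exact h1
  rw [e]
  rfl

end Vale.Agent.P022.H707
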