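import Vale.Agent.P022.H707.Tw2
import Vale.Agent.P022.H472.Lit2
import Vale.Agent.P022.H587.Lim
import Vale.Agent.P022.H20.Val

/-!
# P022 [TWIST]: the Hecke algebra of level `N m³` acts through the twisted Hecke algebra of level `N`
-/

open scoped ModularForm MatrixGroups Manifold
open UpperHalfPlane Matrix CongruenceSubgroup

noncomputable section

namespace Vale.Agent.P022.H707

open H783

/-! ### the free algebra -/

section Alg

variable {S G : Type} [CommGroup G] (d : S → G)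

/-- graded components of the free algebra, `s` in degree `d s` -/
def Th : FreeAlgebra ℤ S →ₐ[ℤ] MonoidAlgebra (FreeAlgebra ℤ S) G :=
  FreeAlgebra.lift ℤ fun s => MonoidAlgebra.single (d s) (FreeAlgebra.ι ℤ s)

/-- the component of degree `g` -/
def cmp (g : G) (x : FreeAlgebra ℤ S) : FreeAlgebra ℤ S := (Th d x).coeff g

theorem commute_lift {B : Type} [Ring B] (f : S → B) (b : B) (hc : ∀ s, Commute (f s) b)
    (x : FreeAlgebra ℤ S) : Commute (FreeAlgebra.lift ℤ f x) b := by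
  induction x using FreeAlgebra.induction with
  | grade0 r =>
    rw [AlgHom.commutes]
    exact Algebra.commutes r b
  | grade1 s =>
    rw [FreeAlgebra.lift_ι_apply]
    exact hc s
  | add x y hx hy =>
    rw [map_add]
    exact hx.add_left hy
  | mul x y hx hy =>
    rw [map_mul]
    exact hx.mul_left hy

theorem lift_mul [Fintype G] {B : Type} [Ring B] (f : S → B) (u : G →* B)
    (hc : ∀ s g, Commute (f s) (u g)) (x : FreeAlgebra ℤ S) :
    FreeAlgebra.lift ℤ (fun s => f s * u (d s)) x =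
      ∑ g, FreeAlgebra.lift ℤ f (cmp d g x) * u g := by
  let φ : MonoidAlgebra (FreeAlgebra ℤ S) G →ₐ[ℤ] B :=
    MonoidAlgebra.liftNCAlgHom (FreeAlgebra.lift ℤ f) u
      fun x g => commute_lift f (u g) (fun s => hc s g) x
  have h1 : φ.comp (Th d) = FreeAlgebra.lift ℤ (fun s => f s * u (d s)) := by
    apply FreeAlgebra.hom_ext
    funext s
    simp [φ, Th]
  have h2 : ∀ y : MonoidAlgebra (FreeAlgebra ℤ S) G,
      φ y = ∑ g, FreeAlgebra.lift ℤ f (y.coeff g) * u g := by
    intro y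
    change MonoidAlgebra.liftNC _ _ y = _
    change Finsupp.liftAddHom _ y.coeff = _
    rw [Finsupp.liftAddHom_apply, Finsupp.sum_fintype]
    · rfl
    · intro g
      simp
  rw [← h1]
  exact h2 _

/-- intertwining maps -/
theorem twine {V W : Type} [AddCommGroup V] [Module ℂ V] [AddCommGroup W] [Module ℂ W]
    (a : S → Module.End ℂ V) (b : S → Module.End ℂ W) (Φ : W →ₗ[ℂ] V)
    (h : ∀ s F, a s (Φ F) = Φ (b s F)) (x : FreeAlgebra ℤ S) :
    ∀ F, FreeAlgebra.lift ℤ a x (Φ F) = Φ (FreeAlgebra.lift ℤ b x F) := by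
  induction x using FreeAlgebra.induction with
  | grade0 r =>
    intro F
    rw [AlgHom.commutes, AlgHom.commutes]
    simp
  | grade1 s =>
    intro F
    rw [FreeAlgebra.lift_ι_apply, FreeAlgebra.lift_ι_apply]
    exact h s F
  | add x y hx hy =>
    intro F
    rw [map_add, map_add, LinearMap.add_apply, LinearMap.add_apply, hx, hy, map_add]
  | mul x y hx hy =>
    intro F
    rw [map_mul, map_mul, Module.End.mul_apply, Module.End.mul_apply, hy, hx]

/-- pointwise action -/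
def pw {V : Type} [AddCommGroup V] [Module ℂ V] (I : Type) (f : Module.End ℂ V) :
    Module.End ℂ (I → V) := LinearMap.compLeft f I

theorem pw_apply {V : Type} [AddCommGroup V] [Module ℂ V] (I : Type) (f : Module.End ℂ V)
    (F : I → V) (v : I) : pw I f F v = f (F v) := rfl

theorem lift_pw {V : Type} [AddCommGroup V] [Module ℂ V] (I : Type) (a : S → Module.End ℂ V)
    (x : FreeAlgebra ℤ S) (F : I → V) (v : I) :
    FreeAlgebra.lift ℤ (fun s => pw I (a s)) x F v = FreeAlgebra.lift ℤ a x (F v) := by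
  have := twine (S := S) a (fun s => pw I (a s)) (LinearMap.proj v : (I → V) →ₗ[ℂ] V)
    (fun s F => rfl) x F
  exact this.symm

end Alg

/-! ### the main computation -/

/-- generators of level `N'` as generators of level `N` -/
def dg {N N' : ℕ} (h : N ∣ N') : Gen N' → Gen N := Sum.map (dp h) (dp h)

/-- the class of `ℓ` modulo `m` -/
def cls {m N : ℕ} (h : m ∣ N) (ℓ : PA N) : (ZMod m)ˣ :=
  ZMod.unitOfCoprime ℓ.1 (Nat.Coprime.coprime_dvd_right h ℓ.coprime)

theorem cls_coe {m N : ℕ} (h : m ∣ N) (ℓ : PA N) : ((cls h ℓ : (ZMod m)ˣ) : ZMod m) = (ℓ.1 : ℕ) :=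
  ZMod.coe_unitOfCoprime _ _

/-- the degrees of the generators -/
def deg {m N : ℕ} (h : m ∣ N) : Gen N → (ZMod m)ˣ :=
  Sum.elim (fun ℓ => cls h ℓ) (fun ℓ => cls h ℓ ^ 2)

theorem gHk_inl {N : ℕ} [NeZero N] (ℓ : PA N) (i : ℕ) :
    gHk N (Sum.inl ℓ) i = Tl (i + 1) ℓ := rfl

theorem gHk_inr {N : ℕ} [NeZero N] (ℓ : PA N) (i : ℕ) :
    gHk N (Sum.inr ℓ) i = ((ℓ.1 : ℂ) ^ i) • dia (i + 1) ℓ := rfl

/-- the inclusion of levels commutes with the generators -/
theorem gHk_inc {N N' : ℕ} [NeZero N] [NeZero N'] (h : N ∣ N') (i : ℕ) (s : Gen N')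
    (f : MF N (i + 1)) :
    gHk N' s i (inc h (i + 1) f) = inc h (i + 1) (gHk N (dg h s) i f) := by
  rcases s with ℓ | ℓ
  · exact Tl_inc h (i + 1) ℓ f
  · change ((ℓ.1 : ℂ) ^ i) • dia (i + 1) ℓ (inc h (i + 1) f) =
      inc h (i + 1) (((ℓ.1 : ℂ) ^ i) • dia (i + 1) (dp h ℓ) f)
    rw [dia_inc, map_smul]

/-- `U_p` commutes with the generators -/
theorem gHk_Up {N p : ℕ} [NeZero N] (hp : p.Prime) (hpN : p ∣ N) (i : ℕ) (s : Gen N)
    (f : MF N (i + 1)) :
    gHk N s i (Up hp hpN (i + 1) f) = Up hp hpN (i + 1) (gHk N s i f) := by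
  rcases s with ℓ | ℓ
  · exact (Up_Tl hp hpN (i + 1) ℓ f).symm
  · change ((ℓ.1 : ℂ) ^ i) • dia (i + 1) ℓ (Up hp hpN (i + 1) f) =
      Up hp hpN (i + 1) (((ℓ.1 : ℂ) ^ i) • dia (i + 1) ℓ f)
    rw [map_smul, Up_dia]

section Main

variable {N m : ℕ} [NeZero N] [NeZero m] [NeZero (N * m ^ 2)]

/-- the translate depends only on `a` modulo `m` -/
theorem tr_congr {k : ℕ} {a b : ℤ} (h : (a : ZMod m) = b) (f : MF N k) :
    tr (m := m) k a f = tr (m := m) k b f := by
  apply ext_co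
  intro n
  rw [co_tr, co_tr]
  have e : ∀ a : ℤ, Complex.exp (2 * Real.pi * Complex.I * (n * a / m)) =
      ZMod.stdAddChar (((n : ℤ) : ZMod m) * (a : ZMod m)) := by
    intro a
    rw [← Int.cast_mul, ZMod.stdAddChar_coe]
    congr 1
    push_cast
    ring
  rw [e, e, h]

theorem co_tr' {k : ℕ} (v : ZMod m) (f : MF N k) (n : ℕ) :
    co (tr (m := m) k (v.val : ℤ) f) n = ZMod.stdAddChar ((n : ZMod m) * v) * co f n := by
  rw [co_tr]
  congr 1
  have e : ((n : ZMod m) * v) = (((n : ℤ) * (v.val : ℤ) : ℤ) : ZMod m) := by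
    push_cast
    rw [ZMod.natCast_zmod_val]
  rw [e, ZMod.stdAddChar_coe]
  congr 1
  push_cast
  ring

/-- `∑_v F_v(τ + v/m)` -/
def Ph (k : ℕ) : (ZMod m → MF N k) →ₗ[ℂ] MF (N * m ^ 2) k :=
  ∑ v : ZMod m, (tr (m := m) k (v.val : ℤ)).comp (LinearMap.proj v)

theorem Ph_apply (k : ℕ) (F : ZMod m → MF N k) :
    Ph k F = ∑ v : ZMod m, tr (m := m) k (v.val : ℤ) (F v) := by
  rw [Ph, LinearMap.sum_apply]
  rfl

/-- the action of the units on families -/
def uu (k : ℕ) : (ZMod m)ˣ →* Module.End ℂ (ZMod m → MF N k) where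
  toFun g := LinearMap.funLeft ℂ (MF N k) (fun v : ZMod m => ((g⁻¹ : (ZMod m)ˣ) : ZMod m) * v)
  map_one' := by
    refine LinearMap.ext fun F => ?_
    funext v
    rw [LinearMap.funLeft_apply]
    simp
  map_mul' g h := by
    refine LinearMap.ext fun F => ?_
    funext v
    rw [Module.End.mul_apply, LinearMap.funLeft_apply, LinearMap.funLeft_apply,
      LinearMap.funLeft_apply, _root_.mul_inv_rev]
    push_cast
    rw [mul_assoc]

theorem uu_apply (k : ℕ) (g : (ZMod m)ˣ) (F : ZMod m → MF N k) (v : ZMod m) :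
    uu k g F v = F (((g⁻¹ : (ZMod m)ˣ) : ZMod m) * v) := rfl

theorem Ph_uu (k : ℕ) (g : (ZMod m)ˣ) (F : ZMod m → MF N k) :
    Ph k (uu k g F) = ∑ v : ZMod m, tr (m := m) k (((g : ZMod m) * v).val : ℤ) (F v) := by
  rw [Ph_apply, ← Equiv.sum_comp (Units.mulLeft g)]
  refine Finset.sum_congr rfl fun v _ => ?_
  rw [uu_apply, Units.mulLeft_apply, Units.inv_mul_cancel_left]

/-- the generators of level `N m²` on families -/
theorem gHk_Ph (i : ℕ) (h : m ∣ N * m ^ 2) (s : Gen (N * m ^ 2)) (F : ZMod m → MF N (i + 1)) :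
    gHk (N * m ^ 2) s i (Ph (i + 1) F) = Ph (i + 1)
      ((pw (ZMod m) (gHk N (dg (dvd_mul_right N (m ^ 2)) s) i) * uu (i + 1) (deg h s) :
        Module.End ℂ (ZMod m → MF N (i + 1))) F) := by
  rw [Module.End.mul_apply]
  have hcomm : ∀ (a : Module.End ℂ (MF N (i + 1))) (g : (ZMod m)ˣ),
      pw (ZMod m) a (uu (i + 1) g F) = uu (i + 1) g (pw (ZMod m) a F) := fun a g => rfl
  rw [hcomm, Ph_uu, Ph_apply, map_sum]
  refine Finset.sum_congr rfl fun v _ => ?_
  rw [pw_apply]
  rcases s with ℓ | ℓ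
  · rw [gHk_inl, Tl_tr]
    refine tr_congr ?_ _
    change _ = ((((cls h ℓ : ZMod m) * v).val : ℤ) : ZMod m)
    rw [Int.cast_natCast, ZMod.natCast_zmod_val, cls_coe]
    push_cast
    rw [ZMod.natCast_zmod_val]
  · change ((ℓ.1 : ℂ) ^ i) • dia (i + 1) ℓ (tr (m := m) (i + 1) (v.val : ℤ) (F v)) =
      tr (m := m) (i + 1) _ (((ℓ.1 : ℂ) ^ i) • dia (i + 1) (dp (dvd_mul_right N (m ^ 2)) ℓ) (F v))
    rw [map_smul, dia_tr]
    congr 1
    refine tr_congr ?_ _
    change _ = ((((((cls h ℓ ^ 2 : (ZMod m)ˣ) : ZMod m)) * v).val : ℤ) : ZMod m)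
    rw [Int.cast_natCast, ZMod.natCast_zmod_val, Units.val_pow_eq_pow_val, cls_coe]
    push_cast
    rw [ZMod.natCast_zmod_val]

/-- the components of an operator which vanishes at level `N m²` have coefficients zero at `n`
prime to `m` -/
theorem co_zero (i : ℕ) (h : m ∣ N * m ^ 2) (x : FreeAlgebra ℤ (Gen (N * m ^ 2)))
    (hx : FreeAlgebra.lift ℤ (fun s => gHk (N * m ^ 2) s i) x = 0) (g : (ZMod m)ˣ)
    (f : MF N (i + 1)) (n : ℕ) (hn : n.Coprime m) :
    co (FreeAlgebra.lift ℤ (fun s => gHk N (dg (dvd_mul_right N (m ^ 2)) s) i)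
      (cmp (deg h) g x) f) n = 0 := by
  classical
  set R : (ZMod m)ˣ → Module.End ℂ (MF N (i + 1)) := fun g =>
    FreeAlgebra.lift ℤ (fun s => gHk N (dg (dvd_mul_right N (m ^ 2)) s) i) (cmp (deg h) g x) with hR
  have h1 : ∀ F : ZMod m → MF N (i + 1), ∑ g, Ph (i + 1) (uu (i + 1) g (fun v => R g (F v))) = 0 := by
    intro F
    have e1 := twine (fun s => gHk (N * m ^ 2) s i)
      (fun s => pw (ZMod m) (gHk N (dg (dvd_mul_right N (m ^ 2)) s) i) * uu (i + 1) (deg h s))
      (Ph (i + 1)) (fun s F => gHk_Ph i h s F) x F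
    rw [hx, LinearMap.zero_apply,
      lift_mul (deg h) (fun s => pw (ZMod m) (gHk N (dg (dvd_mul_right N (m ^ 2)) s) i))
        (uu (i + 1)) (fun s g => rfl) x, LinearMap.sum_apply, map_sum] at e1
    rw [e1]
    refine Finset.sum_congr rfl fun g _ => ?_
    congr 1
    rw [Module.End.mul_apply]
    funext v
    rw [lift_pw]
    rfl
  have h2 : ∀ w : ZMod m, ∑ g : (ZMod m)ˣ,
      ZMod.stdAddChar ((n : ZMod m) * ((g : ZMod m) * w)) * co (R g f) n = 0 := by
    intro w
    have e2 := congrArg (coL (N := N * m ^ 2) (i + 1) n) (h1 (Pi.single w f))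
    rw [map_zero, map_sum] at e2
    rw [← e2]
    refine Finset.sum_congr rfl fun g _ => ?_
    rw [Ph_uu, map_sum, Finset.sum_eq_single w]
    · rw [coL_apply, co_tr', Pi.single_eq_same]
    · intro v _ hv
      rw [Pi.single_eq_of_ne hv, map_zero, map_zero, map_zero]
    · intro hw
      exact absurd (Finset.mem_univ w) hw
  have hnu : IsUnit (n : ZMod m) := (ZMod.isUnit_iff_coprime n m).2 hn
  have h3 : ∑ w : ZMod m, ∑ g' : (ZMod m)ˣ, ZMod.stdAddChar (-((n : ZMod m) * ((g : ZMod m) * w))) *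
      (ZMod.stdAddChar ((n : ZMod m) * ((g' : ZMod m) * w)) * co (R g' f) n) = 0 := by
    refine Finset.sum_eq_zero fun w _ => ?_
    rw [← Finset.mul_sum, h2, mul_zero]
  rw [Finset.sum_comm] at h3
  have h4 : ∀ g' : (ZMod m)ˣ, ∑ w : ZMod m,
      ZMod.stdAddChar (-((n : ZMod m) * ((g : ZMod m) * w))) *
        (ZMod.stdAddChar ((n : ZMod m) * ((g' : ZMod m) * w)) * co (R g' f) n) =
      (if g' = g then (m : ℂ) else 0) * co (R g' f) n := by
    intro g'
    have e3 : ∀ w : ZMod m, ZMod.stdAddChar (-((n : ZMod m) * ((g : ZMod m) * w))) *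
        (ZMod.stdAddChar ((n : ZMod m) * ((g' : ZMod m) * w)) * co (R g' f) n) =
        ZMod.stdAddChar (w * ((n : ZMod m) * ((g' : ZMod m) - (g : ZMod m)))) * co (R g' f) n := by
      intro w
      rw [← mul_assoc, ← AddChar.map_add_eq_mul]
      congr 2
      ring
    simp_rw [e3]
    rw [← Finset.sum_mul, AddChar.sum_mulShift _ (ZMod.isPrimitive_stdAddChar m), ZMod.card]
    have e4 : ((n : ZMod m) * ((g' : ZMod m) - (g : ZMod m)) = 0) ↔ g' = g := by
      rw [hnu.mul_right_eq_zero, sub_eq_zero, Units.val_inj]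
    by_cases hg : g' = g
    · rw [if_pos (e4.2 hg), if_pos hg]
    · rw [if_neg (fun h => hg (e4.1 h)), if_neg hg]
      simp
  simp_rw [h4] at h3
  rw [Finset.sum_eq_single g] at h3
  · rw [if_pos rfl] at h3
    have hm : (m : ℂ) ≠ 0 := by exact_mod_cast NeZero.ne m
    exact (mul_eq_zero.1 h3).resolve_left hm
  · intro g' _ hg
    rw [if_neg hg, zero_mul]
  · intro hg
    exact absurd (Finset.mem_univ g) hg

/-- the components of an operator which vanishes at level `N m²` vanish at level `N` if `m ∣ N` -/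
theorem cmp_zero (i : ℕ) (hmN : m ∣ N) (h : m ∣ N * m ^ 2) (x : FreeAlgebra ℤ (Gen (N * m ^ 2)))
    (hx : FreeAlgebra.lift ℤ (fun s => gHk (N * m ^ 2) s i) x = 0) (g : (ZMod m)ˣ) :
    FreeAlgebra.lift ℤ (fun s => gHk N (dg (dvd_mul_right N (m ^ 2)) s) i)
      (cmp (deg h) g x) = 0 := by
  set y := cmp (deg h) g x with hy
  have h1 : ∀ n, 0 < n → ∀ f : MF N (i + 1), co (FreeAlgebra.lift ℤ
      (fun s => gHk N (dg (dvd_mul_right N (m ^ 2)) s) i) y f) n = 0 := by
    intro n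
    induction n using Nat.strong_induction_on with
    | _ n ih =>
      intro hn f
      by_cases hc : n.Coprime m
      · exact co_zero i h x hx g f n hc
      · obtain ⟨p, hp, hpn, hpm⟩ := Nat.Prime.not_coprime_iff_dvd.1 hc
        obtain ⟨n', rfl⟩ := hpn
        have hpN : p ∣ N := hpm.trans hmN
        have hn' : 0 < n' := Nat.pos_of_ne_zero (by
          rintro rfl
          simp at hn)
        rw [← co_Up hp hpN]
        have e := twine (fun s => gHk N (dg (dvd_mul_right N (m ^ 2)) s) i)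
          (fun s => gHk N (dg (dvd_mul_right N (m ^ 2)) s) i) (Up hp hpN (i + 1))
          (fun s F => gHk_Up hp hpN i _ F) y f
        rw [← e]
        exact ih n' (lt_mul_of_one_lt_left hn' hp.one_lt) hn' _
  refine LinearMap.ext fun f => ?_
  rw [LinearMap.zero_apply]
  exact eq_zero_of_co (Nat.succ_pos i) fun n hn => h1 n hn f

end Main

end Vale.Agent.P022.H707
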