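import Vale.Agent.P022.H707.Tw3

/-!
# P022 [TWIST]: twisting a continuous homomorphism `T₂(N) → E` by a character modulo `m`
-/

open scoped ModularForm MatrixGroups Manifold TensorProduct
open UpperHalfPlane Matrix CongruenceSubgroup

noncomputable section

namespace Vale.Agent.P022.H707

open H783

/-- the map of free algebras -/
def mu {N N' : ℕ} (h : N ∣ N') : FreeAlgebra ℤ (Gen N') →ₐ[ℤ] FreeAlgebra ℤ (Gen N) :=
  FreeAlgebra.lift ℤ fun s => FreeAlgebra.ι ℤ (dg h s)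

theorem lift_mu {N N' : ℕ} (h : N ∣ N') {B : Type} [Ring B] (f : Gen N → B)
    (x : FreeAlgebra ℤ (Gen N')) :
    FreeAlgebra.lift ℤ f (mu h x) = FreeAlgebra.lift ℤ (fun s => f (dg h s)) x := by
  have e : (FreeAlgebra.lift ℤ f).comp (mu h) = FreeAlgebra.lift ℤ (fun s => f (dg h s)) := by
    apply FreeAlgebra.hom_ext
    funext s
    simp [mu]
  exact congrArg (fun φ : FreeAlgebra ℤ (Gen N') →ₐ[ℤ] B => φ x) e

theorem val_gen {S T E : Type} [Ring T] [Ring E] (l : T →+* E) (a : S → T)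
    (x : FreeAlgebra ℤ S) :
    FreeAlgebra.lift ℤ (fun s => l (a s)) x = l (FreeAlgebra.lift ℤ a x) := by
  induction x using FreeAlgebra.induction with
  | grade0 r =>
    rw [AlgHom.commutes, AlgHom.commutes, eq_intCast, eq_intCast, map_intCast]
  | grade1 s =>
    rw [FreeAlgebra.lift_ι_apply, FreeAlgebra.lift_ι_apply]
  | add x y hx hy =>
    rw [map_add, map_add, hx, hy, map_add]
  | mul x y hx hy =>
    rw [map_mul, map_mul, hx, hy, map_mul]

/-- the values of `λ` on the free algebra -/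
theorem val_jj {S : Type} {V : ℕ → Type} [∀ i, Ring (V i)] {g : S → ∀ i, V i} {E : Type}
    [NontriviallyNormedField E] [NormedAlgebra ℚ_[2] E] (c : ContHom g E) (x : FreeAlgebra ℤ S) :
    FreeAlgebra.lift ℤ c.val x = c.lam (H587.jj g x) :=
  val_gen c.lam (gT2 g) x

/-- smallness of the image of an operator vanishing in small weights -/
theorem small_jj {S : Type} {V : ℕ → Type} [∀ i, Ring (V i)] {g : S → ∀ i, V i} (k M : ℕ)
    (x : FreeAlgebra ℤ S) (hx : ∀ i < k, FreeAlgebra.lift ℤ (fun s => g s i) x = 0) :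
    Small g k M (H587.jj g x) := by
  refine ⟨0, ?_⟩
  rw [H587.jj_apply, smul_zero]
  have e : H587.pi g k x = 0 := by
    apply Subtype.ext
    funext i
    rw [H587.pi_apply]
    exact hx i i.2
  rw [e, TensorProduct.tmul_zero]

/-- twisting, abstract form -/
theorem ext_lim {S S' G : Type} [CommGroup G] [Fintype G] {V V' : ℕ → Type} [∀ i, Ring (V i)]
    [∀ i, Ring (V' i)] (g : S → ∀ i, V i) (g' : S' → ∀ i, V' i) {E : Type}
    [NontriviallyNormedField E] [NormedAlgebra ℚ_[2] E] [CompleteSpace E] (c₀ : ContHom g E)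
    (d : S' → G) (τ : S' → S) (u : G →* E) (hu1 : ∀ γ, ‖u γ‖ = 1)
    (hz : ∀ (i : ℕ) (x : FreeAlgebra ℤ S'), FreeAlgebra.lift ℤ (fun s => g' s i) x = 0 →
      ∀ γ, FreeAlgebra.lift ℤ (fun s => g (τ s) i) (cmp d γ x) = 0) :
    ∃ c : ContHom g' E, ∀ s, c.val s = c₀.val (τ s) * u (d s) := by
  have : IsUltrametricDist E := IsUltrametricDist.of_normedAlgebra ℚ_[2]
  -- the map of free algebras
  let ν : FreeAlgebra ℤ S' →ₐ[ℤ] FreeAlgebra ℤ S :=
    FreeAlgebra.lift ℤ fun s => FreeAlgebra.ι ℤ (τ s)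
  have hν : ∀ {B : Type} [Ring B] (f : S → B) (x : FreeAlgebra ℤ S'),
      FreeAlgebra.lift ℤ f (ν x) = FreeAlgebra.lift ℤ (fun s => f (τ s)) x := by
    intro B _ f x
    have e : (FreeAlgebra.lift ℤ f).comp ν = FreeAlgebra.lift ℤ (fun s => f (τ s)) := by
      apply FreeAlgebra.hom_ext
      funext s
      simp [ν]
    exact congrArg (fun φ : FreeAlgebra ℤ S' →ₐ[ℤ] B => φ x) e
  let L₀ : FreeAlgebra ℤ S' →ₐ[ℤ] E := FreeAlgebra.lift ℤ (fun s => c₀.val (τ s))
  have hL₀ : ∀ x, L₀ x = c₀.lam (H587.jj g (ν x)) := by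
    intro x
    rw [← val_jj, hν]
  have hle : ∀ x, ‖L₀ x‖ ≤ 1 := by
    intro x
    rw [hL₀]
    exact c₀.lam_le _
  let L : FreeAlgebra ℤ S' →ₐ[ℤ] E := FreeAlgebra.lift ℤ (fun s => c₀.val (τ s) * u (d s))
  have hL : ∀ x, L x = ∑ γ, L₀ (cmp d γ x) * u γ := fun x =>
    lift_mul d (fun s => c₀.val (τ s)) u (fun s γ => Commute.all _ _) x
  obtain ⟨c, hc⟩ := H587.LIM S' V' g' E L
    (by
      intro x
      rw [hL]
      refine IsUltrametricDist.norm_sum_le_of_forall_le_of_nonneg zero_le_one fun γ _ => ?_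
      rw [norm_mul, hu1, mul_one]
      exact hle _)
    (by
      intro ε hε
      obtain ⟨k, M, hk⟩ := c₀.lam_cont (ε / 2) (by positivity)
      refine ⟨k, fun x hx => ?_⟩
      have h1 : ∀ γ, ‖L₀ (cmp d γ x) * u γ‖ ≤ ε / 2 := by
        intro γ
        rw [norm_mul, hu1, mul_one, hL₀]
        refine (hk _ (small_jj k M _ fun i hi => ?_)).le
        rw [hν]
        exact hz i x (hx i hi) γ
      rw [hL]
      exact lt_of_le_of_lt (IsUltrametricDist.norm_sum_le_of_forall_le_of_nonneg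
        (by positivity : (0 : ℝ) ≤ ε / 2) fun γ _ => h1 γ) (by linarith))
  refine ⟨c, fun s => ?_⟩
  refine (hc s).trans ?_
  exact FreeAlgebra.lift_ι_apply _ _

section

variable {N m : ℕ} [NeZero N] [NeZero m] [NeZero (N * m)] [NeZero (N * m * m ^ 2)]

/-- the components of an operator which vanishes at level `N m³` vanish at level `N` -/
theorem cmp_zero' (i : ℕ) (hN : N ∣ N * m * m ^ 2) (h : m ∣ N * m * m ^ 2)
    (x : FreeAlgebra ℤ (Gen (N * m * m ^ 2)))
    (hx : FreeAlgebra.lift ℤ (fun s => gHk (N * m * m ^ 2) s i) x = 0) (g : (ZMod m)ˣ) :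
    FreeAlgebra.lift ℤ (fun s => gHk N s i) (mu hN (cmp (deg h) g x)) = 0 := by
  have h1 := cmp_zero (N := N * m) i (dvd_mul_left m N) h x hx g
  rw [lift_mu]
  refine LinearMap.ext fun f => ?_
  apply inc_injective (dvd_mul_right N m) (i + 1)
  have e := twine (fun s : Gen (N * m * m ^ 2) =>
      gHk (N * m) (dg (dvd_mul_right (N * m) (m ^ 2)) s) i)
    (fun s => gHk N (dg hN s) i) (inc (dvd_mul_right N m) (i + 1)) (by
      intro s F
      rw [gHk_inc]
      congr 2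
      rcases s with ℓ | ℓ <;> rfl) (cmp (deg h) g x) f
  rw [← e, h1, LinearMap.zero_apply, LinearMap.zero_apply, map_zero]

/-- **twisting on the automorphic side** -/
theorem contHom_twist {E : Type} [NontriviallyNormedField E] [NormedAlgebra ℚ_[2] E]
    [CompleteSpace E] (hN : N ∣ N * m * m ^ 2) (h : m ∣ N * m * m ^ 2)
    (c₀ : ContHom (gHk N) E) (ψ : (ZMod m)ˣ →* Eˣ) :
    ∃ c : ContHom (gHk (N * m * m ^ 2)) E, ∀ s,
      c.val s = c₀.val (dg hN s) * (ψ (deg h s) : E) := by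
  have hψ : ∀ g, ‖(((Units.coeHom E).comp ψ) g : E)‖ = 1 := by
    intro g
    change ‖(ψ g : E)‖ = 1
    have h1 : (ψ g : E) ^ (Nat.card (ZMod m)ˣ) = 1 := by
      rw [← Units.val_pow_eq_pow_val, ← map_pow, pow_card_eq_one', map_one, Units.val_one]
    have h2 : ‖(ψ g : E)‖ ^ (Nat.card (ZMod m)ˣ) = 1 := by
      rw [← norm_pow, h1, norm_one]
    exact (pow_eq_one_iff_of_nonneg (norm_nonneg _) Nat.card_pos.ne').1 h2
  refine ext_lim (gHk N) (gHk (N * m * m ^ 2)) c₀ (deg h) (dg hN) ((Units.coeHom E).comp ψ) hψ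
    fun i x hx γ => ?_
  have h3 := cmp_zero' i hN h x hx γ
  rwa [lift_mu] at h3

end

end Vale.Agent.P022.H707
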