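import Vale.Agent.P022.H707.Tw4
import Vale.Agent.P022.H20.Fin
import Vale.Agent.P022.H811.L3.Zeta

/-!
# P022 [TWIST]: occurrence is stable under twists by characters of odd modulus
-/

open NumberField Matrix

noncomputable section

namespace Vale.Agent.P022.H707

theorem trace_smul2 {E : Type} [Field E] (a : E) (A : Matrix (Fin 2) (Fin 2) E) :
    (a • A).trace = A.trace * a := by
  rw [Matrix.trace_smul, smul_eq_mul, mul_comm]

theorem det_smul2 {E : Type} [Field E] (a : E) (A : Matrix (Fin 2) (Fin 2) E) :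
    (a • A).det = A.det * a ^ 2 := by
  rw [Matrix.det_smul, Fintype.card_fin, mul_comm]

/-- **occurrence is stable under twists**: if `r₀` occurs at level `N` then its twist by `ψ`
modulo `m` occurs at level `N m³` -/
theorem occurs_twist {E : Type} [NontriviallyNormedField E] [NormedAlgebra ℚ_[2] E]
    [CompleteSpace E] (N m : ℕ) [NeZero N] [NeZero m] [NeZero (N * m * m ^ 2)]
    (ψ : (ZMod m)ˣ →* Eˣ) (r₀ r : GQ →* GL (Fin 2) E) (h : Occurs E N r₀)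
    (htw : St.IsTwist m ψ r₀ r) : Occurs E (N * m * m ^ 2) r := by
  have hm0 : 0 < m := Nat.pos_of_ne_zero (NeZero.ne m)
  have : NeZero (N * m) := ⟨mul_ne_zero (NeZero.ne N) (NeZero.ne m)⟩
  have hN : N ∣ N * m * m ^ 2 := ⟨m * m ^ 2, by ring⟩
  have hm : m ∣ N * m * m ^ 2 := ⟨N * m ^ 2, by ring⟩
  have hcop : ∀ ℓ : PA (N * m * m ^ 2), ℓ.1.Coprime m := fun ℓ =>
    Nat.Coprime.coprime_dvd_right hm ℓ.coprime
  obtain ⟨h1, c₀, hc₀⟩ := h
  obtain ⟨c, hc⟩ := contHom_twist hN hm c₀ ψ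
  refine ⟨fun ℓ => H811.L3.unrAt_twist hm0 ℓ.2.1 (hcop ℓ) htw (h1 (dp hN ℓ)), c, fun ℓ g hg => ?_⟩
  have e := H811.L3.frob_twist hm0 ℓ.2.1 (hcop ℓ) htw hg
  obtain ⟨e1, e2⟩ := hc₀ (dp hN ℓ) g hg
  rw [e, hc, hc, trace_smul2, det_smul2, ← e1, ← e2]
  refine ⟨rfl, ?_⟩
  change _ * ((ψ (cls hm ℓ ^ 2) : Eˣ) : E) = _
  rw [map_pow, Units.val_pow_eq_pow_val]
  rfl

/-- **Q1 for twists** -/
theorem q1_twist {E : Type} [NontriviallyNormedField E] [NormedAlgebra ℚ_[2] E]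
    [CompleteSpace E] (N m : ℕ) [NeZero N] (hN : Odd N) (hm : Odd m)
    (ψ : (ZMod m)ˣ →* Eˣ) (r₀ r : GQ →* GL (Fin 2) E) (h : Occurs E N r₀)
    (htw : St.IsTwist m ψ r₀ r) (hram : ∀ p : ℕ, p.Prime → p ∣ N * m → ¬ UnrAt r p) :
    Q1Concl E r := by
  have : NeZero m := ⟨by
    rintro rfl
    exact absurd hm (by decide)⟩
  have hne : NeZero (N * m * m ^ 2) :=
    ⟨mul_ne_zero (mul_ne_zero (NeZero.ne N) (NeZero.ne m)) (pow_ne_zero 2 (NeZero.ne m))⟩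
  refine ⟨N * m * m ^ 2, hne, (hN.mul hm).mul (hm.pow), fun p hp hpd => hram p hp ?_,
    occurs_twist N m ψ r₀ r h htw⟩
  rcases (Nat.Prime.dvd_mul hp).1 hpd with h1 | h1
  · exact h1
  · exact (hp.dvd_of_dvd_pow h1).mul_left N

end Vale.Agent.P022.H707
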